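import Vale.Agent.P319.SC.QL.H811.Den2
import Vale.Agent.P319.SC.QL.QIface

/-! P319, block SC, QL2-D: few characters modulo `r` have a zero near `1`. -/

set_option linter.all false

namespace Vale.Agent.P319.SC.QL.H811

open Finset

theorem lapp : LApp := Vale.Agent.P013.J.lapprox

/-- the condition on the error term -/
theorem small_of (r : ℕ) (hr : 4096 ≤ r) (η : ℝ) (hη0 : 0 < η) (hη1 : η ≤ 1 / 16) :
    4 * r * ((r ^ 2 : ℕ) : ℝ) ^ (-(1 - η)) *
      (((r ^ 2 : ℕ) : ℝ) ^ η * (1 + Real.log ((r ^ 2 : ℕ) : ℝ))) ≤ 1 / 2 := by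
  have hr1 : (4096 : ℝ) ≤ r := by exact_mod_cast hr
  have hr0 : (0 : ℝ) < r := by linarith
  have h1 : ((r ^ 2 : ℕ) : ℝ) = (r : ℝ) ^ (2 : ℝ) := by
    push_cast
    norm_cast
  have hq : (0 : ℝ) < (r : ℝ) ^ (1 / 4 : ℝ) := Real.rpow_pos_of_pos hr0 _
  have hlog : 1 + 2 * Real.log r ≤ 8 * (r : ℝ) ^ (1 / 4 : ℝ) := by
    have h2 : Real.log ((r : ℝ) ^ (1 / 4 : ℝ)) ≤ (r : ℝ) ^ (1 / 4 : ℝ) - 1 :=
      Real.log_le_sub_one_of_pos hq
    rw [Real.log_rpow hr0] at h2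
    linarith
  have h3 : Real.log ((r : ℝ) ^ (2 : ℝ)) = 2 * Real.log r := Real.log_rpow hr0 2
  rw [h1, h3, ← Real.rpow_mul hr0.le, ← Real.rpow_mul hr0.le]
  have h4 : (r : ℝ) * (r : ℝ) ^ (2 * -(1 - η)) * (r : ℝ) ^ (2 * η) = (r : ℝ) ^ (-1 + 4 * η) := by
    conv_lhs => rw [← Real.rpow_one (r : ℝ)]
    rw [← Real.rpow_mul hr0.le, ← Real.rpow_mul hr0.le, ← Real.rpow_add hr0, ← Real.rpow_add hr0]
    congr 1
    ring
  have h5 : (r : ℝ) ^ (-1 + 4 * η) ≤ (r : ℝ) ^ (-(3 / 4) : ℝ) :=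
    Real.rpow_le_rpow_of_exponent_le (by linarith) (by linarith)
  have h6 : (r : ℝ) ^ (-(3 / 4) : ℝ) * (r : ℝ) ^ (1 / 4 : ℝ) ≤ 1 / 64 := by
    rw [← Real.rpow_add hr0]
    have h7 : (-(3 / 4) + 1 / 4 : ℝ) = -(1 / 2) := by norm_num
    rw [h7, Real.rpow_neg hr0.le, ← Real.sqrt_eq_rpow]
    have h8 : (64 : ℝ) ≤ Real.sqrt r := by
      refine Real.le_sqrt_of_sq_le ?_
      calc (64 : ℝ) ^ 2 = 4096 := by norm_num
        _ ≤ r := hr1
    rw [one_div]
    exact inv_anti₀ (by norm_num) h8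
  calc 4 * (r : ℝ) * (r : ℝ) ^ (2 * -(1 - η)) * ((r : ℝ) ^ (2 * η) * (1 + 2 * Real.log r))
      = 4 * ((r : ℝ) * (r : ℝ) ^ (2 * -(1 - η)) * (r : ℝ) ^ (2 * η)) * (1 + 2 * Real.log r) := by
        ring
    _ = 4 * (r : ℝ) ^ (-1 + 4 * η) * (1 + 2 * Real.log r) := by rw [h4]
    _ ≤ 4 * (r : ℝ) ^ (-(3 / 4) : ℝ) * (8 * (r : ℝ) ^ (1 / 4 : ℝ)) := by
        refine mul_le_mul ?_ hlog ?_ (by positivity)
        · linarith
        · have : 0 ≤ Real.log r := Real.log_nonneg (by linarith)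
          linarith
    _ = 32 * ((r : ℝ) ^ (-(3 / 4) : ℝ) * (r : ℝ) ^ (1 / 4 : ℝ)) := by ring
    _ ≤ 1 / 2 := by linarith

end Vale.Agent.P319.SC.QL.H811

namespace Vale.Agent.P319.SC.QL

open Vale.Agent.P319.Ev.IA H811

/-- **QL2-D** -/
theorem den : DenStmt := by
  intro A hA
  set K : ℝ := 64 * Real.exp (8 * A) * (1 + 8 * A) ^ 2 with hK
  have hK0 : 0 < K := by positivity
  refine ⟨8 * A + 7, max 4096 ⌈Real.exp (max ((32 * A) ^ 2) K)⌉₊, ?_⟩
  intro r _ hr hr0 S hS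
  have hr1 : 4096 ≤ r := (le_max_left _ _).trans hr0
  have hr2 : Real.exp (max ((32 * A) ^ 2) K) ≤ r := by
    refine (Nat.le_ceil _).trans ?_
    exact_mod_cast (le_max_right _ _).trans hr0
  have hr3 : (0 : ℝ) < r := (Real.exp_pos _).trans_le hr2
  have hr4 : (1 : ℝ) ≤ r := by exact_mod_cast hr.one_lt.le
  have hlog : max ((32 * A) ^ 2) K ≤ Real.log r := by
    rw [Real.le_log_iff_exp_le hr3]
    exact hr2
  have hlog0 : 0 ≤ Real.log r := Real.log_nonneg hr4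
  set l := LL r with hl
  have hll : l = 1 + Real.log r := rfl
  have hl1 : 1 ≤ l := by rw [hll]; linarith
  have hl0 : 0 < l := by linarith
  have hlA : (32 * A) ^ 2 ≤ l := by
    rw [hll]
    linarith [le_max_left ((32 * A) ^ 2) K]
  have hlK : K ≤ l := by
    rw [hll]
    linarith [le_max_right ((32 * A) ^ 2) K]
  have hlam : lam r = 1 + Real.log l := rfl
  have hlogl : 0 ≤ Real.log l := Real.log_nonneg hl1
  have hlam1 : 1 ≤ lam r := by rw [hlam]; linarith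
  have hlaml : lam r ≤ l := by
    rw [hlam]
    linarith [Real.log_le_sub_one_of_pos hl0]
  have hsq : 0 < Real.sqrt l := Real.sqrt_pos.2 hl0
  have hlams : lam r ≤ 2 * Real.sqrt l := by
    rw [hlam]
    have h1 := Real.log_le_sub_one_of_pos hsq
    have h2 : Real.log (Real.sqrt l) = Real.log l / 2 := Real.log_sqrt hl0.le
    linarith
  set η := A * lam r / l with hη
  have hη0 : 0 < η := by positivity
  have hηl : η * l = A * lam r := by
    rw [hη]
    field_simp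
  have hη1 : η ≤ 1 / 16 := by
    rw [hη, div_le_iff₀ hl0]
    have h1 : 32 * A ≤ Real.sqrt l := Real.le_sqrt_of_sq_le hlA
    have h2 : Real.sqrt l * Real.sqrt l = l := Real.mul_self_sqrt hl0.le
    nlinarith [mul_le_mul_of_nonneg_left hlams hA.le, mul_le_mul_of_nonneg_right h1 hsq.le]
  have hcount := count lapp r hr η hη0 hη1 (small_of r hr1 η hη0 hη1) S hS
  refine hcount.trans ?_
  -- the bound for `T ^ η`
  have hT : ((r ^ 2 * r ^ 2 : ℕ) : ℝ) ^ η ≤ Real.exp (4 * A) * l ^ (4 * A) := by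
    have h1 : ((r ^ 2 * r ^ 2 : ℕ) : ℝ) = (r : ℝ) ^ (4 : ℝ) := by
      push_cast
      rw [← pow_add]
      norm_cast
    rw [h1, ← Real.rpow_mul hr3.le, Real.rpow_def_of_pos hr3, Real.rpow_def_of_pos hl0,
      ← Real.exp_add, Real.exp_le_exp]
    have h2 : Real.log r * η ≤ A * lam r := by
      rw [← hηl, mul_comm]
      exact mul_le_mul_of_nonneg_left (by rw [hll]; linarith) hη0.le
    rw [hlam] at h2
    nlinarith
  have hG : 1 + 2 * η * (1 + 4 * Real.log r) ≤ (1 + 8 * A) * l := by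
    have h1 : 1 + 4 * Real.log r ≤ 4 * l := by rw [hll]; linarith
    have h2 : 2 * η * (1 + 4 * Real.log r) ≤ 8 * (A * lam r) := by
      rw [← hηl]
      nlinarith [mul_le_mul_of_nonneg_left h1 hη0.le]
    have h3 : A * lam r ≤ A * l := mul_le_mul_of_nonneg_left hlaml hA.le
    nlinarith
  have hG0 : 0 ≤ 1 + 2 * η * (1 + 4 * Real.log r) := by positivity
  have h7 : ((r ^ 2 * r ^ 2 : ℕ) : ℝ) ^ η * (1 + 2 * η * (1 + 4 * Real.log r)) ≤
      Real.exp (4 * A) * l ^ (4 * A) * ((1 + 8 * A) * l) :=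
    mul_le_mul hT hG hG0 (by positivity)
  calc 4 * (((r ^ 2 * r ^ 2 : ℕ) : ℝ) ^ η * (1 + 2 * η * (1 + 4 * Real.log r))) ^ 2 *
        (16 * (1 + Real.log r) ^ 4)
      ≤ 4 * (Real.exp (4 * A) * l ^ (4 * A) * ((1 + 8 * A) * l)) ^ 2 * (16 * l ^ 4) := by
        refine mul_le_mul ?_ (by rw [hll]) (by positivity) (by positivity)
        refine mul_le_mul_of_nonneg_left ?_ (by norm_num)
        exact pow_le_pow_left₀ (by positivity) h7 2
    _ = K * (l ^ (8 * A) * l ^ (6 : ℕ)) := by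
        have e1 : Real.exp (4 * A) ^ 2 = Real.exp (8 * A) := by
          rw [← Real.exp_nat_mul]
          congr 1
          push_cast
          ring
        have e2 : (l ^ (4 * A)) ^ 2 = l ^ (8 * A) := by
          rw [← Real.rpow_natCast, ← Real.rpow_mul hl0.le]
          congr 1
          push_cast
          ring
        rw [hK, ← e1, ← e2]
        ring
    _ ≤ l * (l ^ (8 * A) * l ^ (6 : ℕ)) := mul_le_mul_of_nonneg_right hlK (by positivity)
    _ = l ^ (8 * A + 7) := by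
        rw [show (8 * A + 7 : ℝ) = 8 * A + ((7 : ℕ) : ℝ) by norm_num, Real.rpow_add hl0,
          Real.rpow_natCast]
        ring

end Vale.Agent.P319.SC.QL
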