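import Mathlib

/-! P319, block SC, QL2-D, part 1: the mollified sum, progressions, the mean square. -/

set_option linter.all false

namespace Vale.Agent.P319.SC.QL.H811

open Finset ArithmeticFunction

open scoped ArithmeticFunction.Moebius ArithmeticFunction.zeta

/-- coefficients of the product of the truncated series -/
noncomputable def cf (X k : ℕ) : ℝ :=
  ∑ m ∈ Icc 1 X, ∑ n ∈ Icc 1 X, if m * n = k then ((μ m : ℤ) : ℝ) else 0

theorem cf_prod (X : ℕ) (g : ℕ → ℂ) (hg : ∀ m n, g (m * n) = g m * g n) :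
    (∑ m ∈ Icc 1 X, ((μ m : ℤ) : ℂ) * g m) * (∑ n ∈ Icc 1 X, g n) =
      ∑ k ∈ Icc 1 (X * X), ((cf X k : ℝ) : ℂ) * g k := by
  have h1 : ∀ k, ((cf X k : ℝ) : ℂ) * g k = ∑ m ∈ Icc 1 X, ∑ n ∈ Icc 1 X,
      if m * n = k then ((μ m : ℤ) : ℂ) * g k else 0 := by
    intro k
    rw [cf]
    push_cast
    rw [Finset.sum_mul]
    refine Finset.sum_congr rfl fun m _ => ?_
    rw [Finset.sum_mul]
    refine Finset.sum_congr rfl fun n _ => ?_
    split_ifs <;> simp
  rw [Finset.sum_congr rfl fun k _ => h1 k, Finset.sum_comm, Finset.sum_mul]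
  refine Finset.sum_congr rfl fun m hm => ?_
  rw [Finset.sum_comm, Finset.mul_sum]
  refine Finset.sum_congr rfl fun n hn => ?_
  rw [Finset.sum_ite_eq, if_pos, hg, mul_assoc]
  rw [Finset.mem_Icc] at hm hn ⊢
  exact ⟨Nat.mul_pos (by omega) (by omega), Nat.mul_le_mul hm.2 hn.2⟩

theorem cf_eq_divisors (X k : ℕ) (hk : 1 ≤ k) (hkX : k ≤ X) :
    cf X k = ∑ p ∈ k.divisorsAntidiagonal, ((μ p.1 : ℤ) : ℝ) := by
  rw [cf, ← Finset.sum_product', ← Finset.sum_filter]
  refine Finset.sum_congr ?_ fun _ _ => rfl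
  ext p
  rw [Finset.mem_filter, Finset.mem_product, Finset.mem_Icc, Finset.mem_Icc,
    Nat.mem_divisorsAntidiagonal]
  constructor
  · rintro ⟨_, h⟩
    exact ⟨h, by omega⟩
  · rintro ⟨h, h0⟩
    have h1 : 0 < p.1 := by
      rcases Nat.eq_zero_or_pos p.1 with h' | h'
      · rw [h', zero_mul] at h
        omega
      · exact h'
    have h2 : 0 < p.2 := by
      rcases Nat.eq_zero_or_pos p.2 with h' | h'
      · rw [h', mul_zero] at h
        omega
      · exact h'
    refine ⟨⟨⟨h1, ?_⟩, ⟨h2, ?_⟩⟩, h⟩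
    · exact (Nat.le_mul_of_pos_right _ h2).trans (h.le.trans hkX)
    · exact (Nat.le_mul_of_pos_left _ h1).trans (h.le.trans hkX)

theorem cf_small (X k : ℕ) (hk : 1 ≤ k) (hkX : k ≤ X) : cf X k = if k = 1 then 1 else 0 := by
  rw [cf_eq_divisors X k hk hkX]
  have h1 : ((μ * ζ : ArithmeticFunction ℤ) k) = (1 : ArithmeticFunction ℤ) k := by
    rw [moebius_mul_coe_zeta]
  rw [ArithmeticFunction.mul_apply, ArithmeticFunction.one_apply] at h1
  have h2 : ∑ p ∈ k.divisorsAntidiagonal, (μ p.1 : ℤ) = if k = 1 then 1 else 0 := by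
    rw [← h1]
    refine Finset.sum_congr rfl fun p hp => ?_
    rw [Nat.mem_divisorsAntidiagonal] at hp
    have : p.2 ≠ 0 := by
      intro h0
      rw [h0, mul_zero] at hp
      exact hp.2 hp.1.symm
    rw [ArithmeticFunction.natCoe_apply, ArithmeticFunction.zeta_apply_ne this]
    simp
  have h3 := congrArg (fun x : ℤ => (x : ℝ)) h2
  simp only [Int.cast_sum] at h3
  rw [h3]
  split_ifs <;> simp

theorem abs_moebius (m : ℕ) : |((μ m : ℤ) : ℝ)| ≤ 1 := by
  have := ArithmeticFunction.abs_moebius_le_one (n := m)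
  exact_mod_cast this

theorem cf_abs (X k : ℕ) :
    |cf X k| ≤ ∑ m ∈ Icc 1 X, ∑ n ∈ Icc 1 X, if m * n = k then (1 : ℝ) else 0 := by
  rw [cf]
  refine (Finset.abs_sum_le_sum_abs _ _).trans (Finset.sum_le_sum fun m _ => ?_)
  refine (Finset.abs_sum_le_sum_abs _ _).trans (Finset.sum_le_sum fun n _ => ?_)
  split_ifs
  · exact abs_moebius m
  · rw [abs_zero]

/-- sums of the absolute values of the coefficients as double sums -/
theorem cf_sum_le (X : ℕ) (s : Finset ℕ) (w : ℕ → ℝ) (hw : ∀ k, 0 ≤ w k) :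
    ∑ k ∈ s, |cf X k| * w k ≤
      ∑ m ∈ Icc 1 X, ∑ n ∈ Icc 1 X, if m * n ∈ s then w (m * n) else 0 := by
  calc ∑ k ∈ s, |cf X k| * w k
      ≤ ∑ k ∈ s, (∑ m ∈ Icc 1 X, ∑ n ∈ Icc 1 X, if m * n = k then (1 : ℝ) else 0) * w k :=
        Finset.sum_le_sum fun k _ => mul_le_mul_of_nonneg_right (cf_abs X k) (hw k)
    _ = ∑ k ∈ s, ∑ m ∈ Icc 1 X, ∑ n ∈ Icc 1 X, if m * n = k then w k else 0 := by
        refine Finset.sum_congr rfl fun k _ => ?_
        rw [Finset.sum_mul]
        refine Finset.sum_congr rfl fun m _ => ?_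
        rw [Finset.sum_mul]
        refine Finset.sum_congr rfl fun n _ => ?_
        split_ifs <;> simp
    _ = _ := by
        rw [Finset.sum_comm]
        refine Finset.sum_congr rfl fun m _ => ?_
        rw [Finset.sum_comm]
        refine Finset.sum_congr rfl fun n _ => ?_
        rw [Finset.sum_ite_eq]

theorem sum_inv_le (N : ℕ) : ∑ n ∈ Icc 1 N, (1 : ℝ) / n ≤ 1 + Real.log N := by
  have h := harmonic_le_one_add_log N
  rw [harmonic_eq_sum_Icc] at h
  push_cast at h
  simpa [one_div] using h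

/-- reciprocals in a progression -/
theorem prog (r : ℕ) (hr : 1 ≤ r) (b : ZMod r) :
    ∑ n ∈ (Ioc r (r ^ 2)).filter (fun n : ℕ => (n : ZMod r) = b), (1 : ℝ) / n ≤
      (1 + Real.log r) / r := by
  have hr0 : (0 : ℝ) < r := by exact_mod_cast hr
  have h1 : ∀ n ∈ (Ioc r (r ^ 2)).filter (fun n : ℕ => (n : ZMod r) = b),
      (1 : ℝ) / n ≤ (1 / (r : ℝ)) * (1 / ((n / r : ℕ) : ℝ)) := by
    intro n hn
    rw [Finset.mem_filter, Finset.mem_Ioc] at hn
    have h2 : 0 < n / r := Nat.div_pos (by omega) (by omega)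
    have h3 : (0 : ℝ) < ((n / r : ℕ) : ℝ) := by exact_mod_cast h2
    have h4 : (r : ℝ) * ((n / r : ℕ) : ℝ) ≤ n := by exact_mod_cast Nat.mul_div_le n r
    rw [div_mul_div_comm, one_mul]
    exact one_div_le_one_div_of_le (mul_pos hr0 h3) h4
  refine (Finset.sum_le_sum h1).trans ?_
  rw [← Finset.mul_sum]
  have h2 : ∑ n ∈ (Ioc r (r ^ 2)).filter (fun n : ℕ => (n : ZMod r) = b),
      (1 : ℝ) / ((n / r : ℕ) : ℝ) =
      ∑ i ∈ ((Ioc r (r ^ 2)).filter (fun n : ℕ => (n : ZMod r) = b)).image (fun n => n / r),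
        (1 : ℝ) / (i : ℝ) := by
    rw [Finset.sum_image]
    intro n hn n' hn' h
    rw [Finset.mem_coe, Finset.mem_filter] at hn hn'
    have h3 : (n : ZMod r) = (n' : ZMod r) := hn.2.trans hn'.2.symm
    rw [ZMod.natCast_eq_natCast_iff'] at h3
    rw [← Nat.div_add_mod n r, ← Nat.div_add_mod n' r, h3]
    simp only at h
    rw [h]
  rw [h2]
  have h3 : ((Ioc r (r ^ 2)).filter (fun n : ℕ => (n : ZMod r) = b)).image (fun n => n / r) ⊆
      Icc 1 r := by
    intro i hi
    rw [Finset.mem_image] at hi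
    obtain ⟨n, hn, rfl⟩ := hi
    rw [Finset.mem_filter, Finset.mem_Ioc] at hn
    rw [Finset.mem_Icc]
    refine ⟨Nat.div_pos (by omega) (by omega), ?_⟩
    exact Nat.div_le_of_le_mul (by rw [← pow_two]; exact hn.1.2)
  have h4 := (Finset.sum_le_sum_of_subset_of_nonneg h3 (f := fun i : ℕ => (1 : ℝ) / (i : ℝ))
    (fun i _ _ => by positivity)).trans (sum_inv_le r)
  calc (1 / (r : ℝ)) * _ ≤ (1 / (r : ℝ)) * (1 + Real.log r) :=
        mul_le_mul_of_nonneg_left h4 (by positivity)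
    _ = (1 + Real.log r) / r := by ring

/-- the half of the class sum -/
theorem class_half (r : ℕ) (hr : r.Prime) (a : ZMod r) (ha : a ≠ 0) :
    ∑ m ∈ Icc 1 (r ^ 2), ∑ n ∈ Ioc r (r ^ 2),
      (if ((m * n : ℕ) : ZMod r) = a then (1 : ℝ) / ((m : ℝ) * n) else 0) ≤
      (1 + 2 * Real.log r) * ((1 + Real.log r) / r) := by
  haveI : Fact r.Prime := ⟨hr⟩
  have hr1 : 1 ≤ r := hr.one_lt.le
  have hlog : 0 ≤ Real.log r := Real.log_nonneg (by exact_mod_cast hr1)
  have h1 : ∀ m ∈ Icc 1 (r ^ 2), ∑ n ∈ Ioc r (r ^ 2),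
      (if ((m * n : ℕ) : ZMod r) = a then (1 : ℝ) / ((m : ℝ) * n) else 0) ≤
        (1 / (m : ℝ)) * ((1 + Real.log r) / r) := by
    intro m hm
    have hm0 : (0 : ℝ) ≤ 1 / (m : ℝ) := by positivity
    by_cases hmr : (m : ZMod r) = 0
    · rw [Finset.sum_eq_zero]
      · positivity
      · intro n _
        rw [if_neg]
        push_cast
        rw [hmr, zero_mul]
        exact fun h => ha h.symm
    · have h2 : ∀ n : ℕ, ((m * n : ℕ) : ZMod r) = a ↔ (n : ZMod r) = (m : ZMod r)⁻¹ * a := by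
        intro n
        push_cast
        constructor
        · intro h
          rw [← h, ← mul_assoc, inv_mul_cancel₀ hmr, one_mul]
        · intro h
          rw [h, ← mul_assoc, mul_inv_cancel₀ hmr, one_mul]
      have h3 : ∑ n ∈ Ioc r (r ^ 2),
          (if ((m * n : ℕ) : ZMod r) = a then (1 : ℝ) / ((m : ℝ) * n) else 0) =
          (1 / (m : ℝ)) * ∑ n ∈ (Ioc r (r ^ 2)).filter
            (fun n : ℕ => (n : ZMod r) = (m : ZMod r)⁻¹ * a), (1 : ℝ) / n := by
        rw [Finset.sum_filter, Finset.mul_sum]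
        refine Finset.sum_congr rfl fun n _ => ?_
        by_cases hn : (n : ZMod r) = (m : ZMod r)⁻¹ * a
        · rw [if_pos ((h2 n).2 hn), if_pos hn]
          rw [div_mul_div_comm, one_mul]
        · rw [if_neg (fun h => hn ((h2 n).1 h)), if_neg hn, mul_zero]
      rw [h3]
      exact mul_le_mul_of_nonneg_left (prog r hr1 _) hm0
  refine (Finset.sum_le_sum h1).trans ?_
  rw [← Finset.sum_mul]
  refine mul_le_mul_of_nonneg_right ?_ (by positivity)
  have h2 := sum_inv_le (r ^ 2)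
  push_cast at h2
  rw [Real.log_pow] at h2
  exact_mod_cast h2

/-- the class sum -/
theorem class_sum (r : ℕ) (hr : r.Prime) (a : ZMod r) (ha : a ≠ 0) (s : Finset ℕ)
    (hs : ∀ k ∈ s, r ^ 2 < k ∧ (k : ZMod r) = a) :
    ∑ k ∈ s, |cf (r ^ 2) k| * (1 / k) ≤ 2 * ((1 + 2 * Real.log r) * ((1 + Real.log r) / r)) := by
  refine (cf_sum_le (r ^ 2) s (fun k => 1 / (k : ℝ)) (fun k => by positivity)).trans ?_
  have h1 : ∀ m ∈ Icc 1 (r ^ 2), ∀ n ∈ Icc 1 (r ^ 2),
      (if m * n ∈ s then 1 / ((m * n : ℕ) : ℝ) else 0) ≤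
        (if r < n then (if ((m * n : ℕ) : ZMod r) = a then (1 : ℝ) / ((m : ℝ) * n) else 0) else 0) +
        (if r < m then (if ((n * m : ℕ) : ZMod r) = a then (1 : ℝ) / ((n : ℝ) * m) else 0) else 0) := by
    intro m hm n hn
    rw [Finset.mem_Icc] at hm hn
    have hnn1 : (0 : ℝ) ≤
        (if r < n then (if ((m * n : ℕ) : ZMod r) = a then (1 : ℝ) / ((m : ℝ) * n) else 0) else 0) := by
      split_ifs <;> positivity
    have hnn2 : (0 : ℝ) ≤
        (if r < m then (if ((n * m : ℕ) : ZMod r) = a then (1 : ℝ) / ((n : ℝ) * m) else 0) else 0) := by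
      split_ifs <;> positivity
    by_cases h : m * n ∈ s
    · rw [if_pos h]
      obtain ⟨h2, h3⟩ := hs _ h
      have h4 : r < n ∨ r < m := by
        by_contra hno
        have := Nat.mul_le_mul (not_lt.1 fun h => hno (Or.inr h)) (not_lt.1 fun h => hno (Or.inl h))
        rw [← pow_two] at this
        omega
      have h6 : ((m * n : ℕ) : ℝ) = (m : ℝ) * n := by push_cast; ring
      rcases h4 with h4 | h4
      · rw [if_pos h4, if_pos h3] at *
        rw [h6]
        linarith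
      · have h5 : ((n * m : ℕ) : ZMod r) = a := by rw [mul_comm n m, h3]
        rw [if_pos h4, if_pos h5] at *
        have h7 : (1 : ℝ) / ((m * n : ℕ) : ℝ) = 1 / ((n : ℝ) * m) := by
          rw [h6, mul_comm (m : ℝ) n]
        rw [h7]
        linarith
    · rw [if_neg h]
      linarith
  refine (Finset.sum_le_sum fun m hm => Finset.sum_le_sum fun n hn => h1 m hm n hn).trans ?_
  simp only [Finset.sum_add_distrib]
  have hsub : ∀ (F : ℕ → ℝ), ∑ n ∈ Icc 1 (r ^ 2), (if r < n then F n else 0) =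
      ∑ n ∈ Ioc r (r ^ 2), F n := by
    intro F
    rw [← Finset.sum_filter]
    refine Finset.sum_congr ?_ fun _ _ => rfl
    ext n
    rw [Finset.mem_filter, Finset.mem_Icc, Finset.mem_Ioc]
    omega
  have h2 : ∑ m ∈ Icc 1 (r ^ 2), ∑ n ∈ Icc 1 (r ^ 2),
      (if r < n then (if ((m * n : ℕ) : ZMod r) = a then (1 : ℝ) / ((m : ℝ) * n) else 0) else 0) ≤
      (1 + 2 * Real.log r) * ((1 + Real.log r) / r) := by
    refine le_trans (le_of_eq ?_) (class_half r hr a ha)
    refine Finset.sum_congr rfl fun m _ => ?_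
    exact hsub _
  have h3 : ∑ m ∈ Icc 1 (r ^ 2), ∑ n ∈ Icc 1 (r ^ 2),
      (if r < m then (if ((n * m : ℕ) : ZMod r) = a then (1 : ℝ) / ((n : ℝ) * m) else 0) else 0) ≤
      (1 + 2 * Real.log r) * ((1 + Real.log r) / r) := by
    rw [Finset.sum_comm]
    refine le_trans (le_of_eq ?_) (class_half r hr a ha)
    refine Finset.sum_congr rfl fun m _ => ?_
    exact hsub _
  linarith

/-- the total sum -/
theorem total_sum (X : ℕ) (s : Finset ℕ) :
    ∑ k ∈ s, |cf X k| * (1 / k) ≤ (1 + Real.log X) ^ 2 := by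
  refine (cf_sum_le X s (fun k => 1 / (k : ℝ)) (fun k => by positivity)).trans ?_
  calc ∑ m ∈ Icc 1 X, ∑ n ∈ Icc 1 X, (if m * n ∈ s then 1 / ((m * n : ℕ) : ℝ) else 0)
      ≤ ∑ m ∈ Icc 1 X, ∑ n ∈ Icc 1 X, (1 / (m : ℝ)) * (1 / (n : ℝ)) := by
        refine Finset.sum_le_sum fun m _ => Finset.sum_le_sum fun n _ => ?_
        split_ifs
        · push_cast
          rw [div_mul_div_comm, one_mul]
        · positivity
    _ = (∑ m ∈ Icc 1 X, (1 : ℝ) / m) * ∑ n ∈ Icc 1 X, (1 : ℝ) / n := by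
        rw [Finset.sum_mul_sum]
    _ ≤ (1 + Real.log X) ^ 2 := by
        rw [pow_two]
        have h0 : 0 ≤ ∑ m ∈ Icc 1 X, (1 : ℝ) / m := Finset.sum_nonneg fun m _ => by positivity
        exact mul_le_mul (sum_inv_le X) (sum_inv_le X) h0 (h0.trans (sum_inv_le X))

/-- the mean square over the characters -/
theorem mean_square (r : ℕ) [Fact r.Prime] (s : Finset ℕ) (a : ℕ → ℝ) (W : ℝ) (hW0 : 0 ≤ W)
    (hW : ∀ k ∈ s, (k : ZMod r) ≠ 0 →
      ∑ k' ∈ s.filter (fun k' : ℕ => (k' : ZMod r) = (k : ZMod r)), |a k'| ≤ W) :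
    ∑ χ : DirichletCharacter ℂ r, ‖∑ k ∈ s, (a k : ℂ) * χ (k : ZMod r)‖ ^ 2 ≤
      r * ((∑ k ∈ s, |a k|) * W) := by
  have horth : ∀ k k' : ℕ, ∑ χ : DirichletCharacter ℂ r,
      χ (k : ZMod r) * (starRingEnd ℂ) (χ (k' : ZMod r)) =
        if (k' : ZMod r) = (k : ZMod r) ∧ (k : ZMod r) ≠ 0 then ((r.totient : ℕ) : ℂ) else 0 := by
    intro k k'
    by_cases hk' : (k' : ZMod r) = 0
    · rw [if_neg]
      · refine Finset.sum_eq_zero fun χ _ => ?_
        have : χ (k' : ZMod r) = 0 := by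
          rw [hk']
          exact MulChar.map_nonunit χ (by simp)
        rw [this, _root_.map_zero, mul_zero]
      · rintro ⟨h1, h2⟩
        exact h2 (h1.symm.trans hk')
    · have h1 := DirichletCharacter.sum_char_inv_mul_char_eq ℂ (n := r)
        (IsUnit.mk0 _ hk') (k : ZMod r)
      have h2 : ∀ χ : DirichletCharacter ℂ r, (starRingEnd ℂ) (χ (k' : ZMod r)) =
          χ (k' : ZMod r)⁻¹ := by
        intro χ
        have h3 : star (χ (k' : ZMod r)) = χ⁻¹ (k' : ZMod r) := MulChar.star_apply' χ _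
        rw [starRingEnd_apply, h3, MulChar.inv_apply']
      rw [Finset.sum_congr rfl fun χ _ => by rw [h2 χ, mul_comm], h1]
      by_cases hkk : (k' : ZMod r) = (k : ZMod r)
      · rw [if_pos hkk, if_pos ⟨hkk, by rw [← hkk]; exact hk'⟩]
      · rw [if_neg hkk, if_neg (fun h => hkk h.1)]
  have h1 : ((∑ χ : DirichletCharacter ℂ r, ‖∑ k ∈ s, (a k : ℂ) * χ (k : ZMod r)‖ ^ 2 : ℝ) : ℂ) =
      ∑ k ∈ s, ∑ k' ∈ s, (a k : ℂ) * (a k' : ℂ) *
        (if (k' : ZMod r) = (k : ZMod r) ∧ (k : ZMod r) ≠ 0 then ((r.totient : ℕ) : ℂ) else 0) := by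
    push_cast
    calc ∑ χ : DirichletCharacter ℂ r, ((‖∑ k ∈ s, (a k : ℂ) * χ (k : ZMod r)‖ : ℝ) : ℂ) ^ 2
        = ∑ χ : DirichletCharacter ℂ r, ∑ k ∈ s, ∑ k' ∈ s, (a k : ℂ) * (a k' : ℂ) *
            (χ (k : ZMod r) * (starRingEnd ℂ) (χ (k' : ZMod r))) := by
          refine Finset.sum_congr rfl fun χ _ => ?_
          rw [← Complex.ofReal_pow, ← Complex.normSq_eq_norm_sq, ← Complex.mul_conj, map_sum,
            Finset.sum_mul_sum]
          refine Finset.sum_congr rfl fun k _ => Finset.sum_congr rfl fun k' _ => ?_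
          rw [map_mul, Complex.conj_ofReal]
          ring
      _ = ∑ k ∈ s, ∑ k' ∈ s, ∑ χ : DirichletCharacter ℂ r, (a k : ℂ) * (a k' : ℂ) *
            (χ (k : ZMod r) * (starRingEnd ℂ) (χ (k' : ZMod r))) := by
          rw [Finset.sum_comm]
          refine Finset.sum_congr rfl fun k _ => ?_
          rw [Finset.sum_comm]
      _ = _ := by
          refine Finset.sum_congr rfl fun k _ => Finset.sum_congr rfl fun k' _ => ?_
          rw [← Finset.mul_sum, horth]
  have h0 : 0 ≤ ∑ χ : DirichletCharacter ℂ r, ‖∑ k ∈ s, (a k : ℂ) * χ (k : ZMod r)‖ ^ 2 :=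
    Finset.sum_nonneg fun χ _ => by positivity
  have h2 : ∑ χ : DirichletCharacter ℂ r, ‖∑ k ∈ s, (a k : ℂ) * χ (k : ZMod r)‖ ^ 2 =
      ‖((∑ χ : DirichletCharacter ℂ r, ‖∑ k ∈ s, (a k : ℂ) * χ (k : ZMod r)‖ ^ 2 : ℝ) : ℂ)‖ := by
    rw [Complex.norm_real, Real.norm_of_nonneg h0]
  rw [h2, h1]
  have htot : ((r.totient : ℕ) : ℝ) ≤ r := by exact_mod_cast Nat.totient_le r
  calc ‖∑ k ∈ s, ∑ k' ∈ s, (a k : ℂ) * (a k' : ℂ) *
        (if (k' : ZMod r) = (k : ZMod r) ∧ (k : ZMod r) ≠ 0 then ((r.totient : ℕ) : ℂ) else 0)‖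
      ≤ ∑ k ∈ s, ∑ k' ∈ s, |a k| * (if (k' : ZMod r) = (k : ZMod r) ∧ (k : ZMod r) ≠ 0 then
          |a k'| * r else 0) := by
        refine (norm_sum_le _ _).trans (Finset.sum_le_sum fun k _ => ?_)
        refine (norm_sum_le _ _).trans (Finset.sum_le_sum fun k' _ => ?_)
        rw [norm_mul, norm_mul, Complex.norm_real, Complex.norm_real, mul_assoc]
        refine mul_le_mul_of_nonneg_left ?_ (abs_nonneg _)
        split_ifs
        · rw [Complex.norm_natCast]
          exact mul_le_mul_of_nonneg_left htot (abs_nonneg _)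
        · simp
    _ ≤ ∑ k ∈ s, |a k| * (W * r) := by
        refine Finset.sum_le_sum fun k hk => ?_
        rw [← Finset.mul_sum]
        refine mul_le_mul_of_nonneg_left ?_ (abs_nonneg _)
        by_cases hk0 : (k : ZMod r) = 0
        · rw [Finset.sum_eq_zero]
          · positivity
          · intro k' _
            rw [if_neg (fun h => h.2 hk0)]
        · have h3 := hW k hk hk0
          rw [Finset.sum_filter] at h3
          have h4 : ∑ k' ∈ s, (if (k' : ZMod r) = (k : ZMod r) ∧ (k : ZMod r) ≠ 0 then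
              |a k'| * r else 0) =
              (∑ k' ∈ s, if (k' : ZMod r) = (k : ZMod r) then |a k'| else 0) * r := by
            rw [Finset.sum_mul]
            refine Finset.sum_congr rfl fun k' _ => ?_
            by_cases hkk : (k' : ZMod r) = (k : ZMod r)
            · rw [if_pos hkk, if_pos ⟨hkk, hk0⟩]
            · rw [if_neg hkk, if_neg (fun h => hkk h.1), zero_mul]
          rw [h4]
          exact mul_le_mul_of_nonneg_right h3 (by positivity)
    _ = r * ((∑ k ∈ s, |a k|) * W) := by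
        rw [← Finset.sum_mul]
        ring

/-- summation by parts -/
theorem abel (a f : ℕ → ℂ) (X T : ℕ) (hXT : X < T) :
    ∑ k ∈ Ioc X T, a k * f k = (∑ k ∈ Ioc X T, a k) * f T -
      ∑ k ∈ Ioo X T, (∑ j ∈ Ioc X k, a j) * (f (k + 1) - f k) := by
  induction T, hXT using Nat.le_induction with
  | base =>
    have h1 : Ioc X (X + 1) = {X + 1} := by
      ext k
      rw [Finset.mem_Ioc, Finset.mem_singleton]
      omega
    have h2 : Ioo X (X + 1) = ∅ := by
      ext k
      rw [Finset.mem_Ioo]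
      constructor
      · intro h
        omega
      · intro h
        exact absurd h (Finset.notMem_empty _)
    rw [Nat.succ_eq_add_one, h1, h2]
    simp
  | succ T hT ih =>
    have h1 : Ioc X (T + 1) = insert (T + 1) (Ioc X T) := by
      ext k
      rw [Finset.mem_Ioc, Finset.mem_insert, Finset.mem_Ioc]
      omega
    have h2 : Ioo X (T + 1) = insert T (Ioo X T) := by
      ext k
      rw [Finset.mem_Ioo, Finset.mem_insert, Finset.mem_Ioo]
      omega
    rw [h1, h2, Finset.sum_insert (by simp), Finset.sum_insert (by simp), ih,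
      Finset.sum_insert (by simp)]
    ring

end Vale.Agent.P319.SC.QL.H811
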