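import Vale.Agent.P319.SC.QL.H811.Den1

/-! P319, block SC, QL2-D, part 2: the counting inequality. -/

set_option linter.all false

namespace Vale.Agent.P319.SC.QL.H811

open Finset

open scoped ArithmeticFunction.Moebius

/-- the approximation of `L(s, χ)` by partial sums, as a hypothesis -/
def LApp : Prop := ∀ (q : ℕ) [NeZero q] (χ : DirichletCharacter ℂ q), χ ≠ 1 →
  ∀ s : ℂ, 0 < s.re → ∀ N : ℕ, 1 ≤ N →
    ‖DirichletCharacter.LFunction χ s - ∑ n ∈ Icc 1 N, χ (n : ZMod q) * (n : ℂ) ^ (-s)‖ ≤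
      2 * q * ‖s‖ / s.re * (N : ℝ) ^ (-s.re)

/-- the partial sums -/
noncomputable def SS {r : ℕ} (χ : DirichletCharacter ℂ r) (X t : ℕ) : ℂ :=
  ∑ k ∈ Ioc X t, ((cf X k * (1 / k) : ℝ) : ℂ) * χ (k : ZMod r)

theorem cpow_norm_le {k T : ℕ} (hk : 1 ≤ k) (hkT : k ≤ T) {w : ℂ} {η : ℝ} (hη : 0 ≤ η)
    (hw : ‖w‖ ≤ η) : ‖(k : ℂ) ^ w‖ ≤ (T : ℝ) ^ η := by
  have hk0 : (0 : ℝ) < k := by exact_mod_cast hk
  have h1 : ‖(k : ℂ) ^ w‖ = (k : ℝ) ^ w.re := Complex.norm_natCast_cpow_of_pos hk w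
  rw [h1]
  have h2 : w.re ≤ η := (Complex.re_le_norm w).trans hw
  calc (k : ℝ) ^ w.re ≤ (k : ℝ) ^ η :=
        Real.rpow_le_rpow_of_exponent_le (by exact_mod_cast hk) h2
    _ ≤ (T : ℝ) ^ η := Real.rpow_le_rpow hk0.le (by exact_mod_cast hkT) hη

theorem cpow_diff_le {k T : ℕ} (hk : 1 ≤ k) (hkT : k ≤ T) {w : ℂ} {η : ℝ} (hη : 0 ≤ η)
    (hη1 : η ≤ 1) (hw : ‖w‖ ≤ η) :
    ‖((k + 1 : ℕ) : ℂ) ^ w - (k : ℂ) ^ w‖ ≤ 2 * η * (T : ℝ) ^ η * (1 / k) := by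
  have hk0 : (0 : ℝ) < k := by exact_mod_cast hk
  have hk0' : (k : ℂ) ≠ 0 := by exact_mod_cast hk0.ne'
  have hq0 : (0 : ℝ) ≤ 1 + 1 / (k : ℝ) := by positivity
  have h1 : ((k + 1 : ℕ) : ℂ) ^ w = (k : ℂ) ^ w * Complex.exp (w * (Real.log (1 + 1 / k) : ℝ)) := by
    have e1 : ((k + 1 : ℕ) : ℂ) = ((k : ℝ) : ℂ) * ((1 + 1 / (k : ℝ) : ℝ) : ℂ) := by
      push_cast
      field_simp
    rw [e1, Complex.mul_cpow_ofReal_nonneg hk0.le hq0]
    congr 1
    rw [Complex.cpow_def_of_ne_zero (by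
      have : (0 : ℝ) < 1 + 1 / (k : ℝ) := by positivity
      exact_mod_cast this.ne'), ← Complex.ofReal_log hq0, mul_comm]
  have hlog0 : 0 ≤ Real.log (1 + 1 / (k : ℝ)) := by
    refine Real.log_nonneg ?_
    have : (0 : ℝ) ≤ 1 / (k : ℝ) := by positivity
    linarith
  have hlog : Real.log (1 + 1 / (k : ℝ)) ≤ 1 / k := by
    have := Real.log_le_sub_one_of_pos (x := 1 + 1 / (k : ℝ)) (by positivity)
    linarith
  have h2 : ‖w * (Real.log (1 + 1 / k) : ℝ)‖ ≤ η * (1 / k) := by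
    rw [norm_mul, Complex.norm_real, Real.norm_of_nonneg hlog0]
    exact mul_le_mul hw hlog hlog0 hη
  have h3 : η * (1 / (k : ℝ)) ≤ 1 := by
    have : 1 / (k : ℝ) ≤ 1 := by
      rw [div_le_one hk0]
      exact_mod_cast hk
    nlinarith [show (0 : ℝ) ≤ 1 / (k : ℝ) by positivity]
  have h4 := Complex.norm_exp_sub_one_le (h2.trans h3)
  have h5 : ((k + 1 : ℕ) : ℂ) ^ w - (k : ℂ) ^ w =
      (k : ℂ) ^ w * (Complex.exp (w * (Real.log (1 + 1 / k) : ℝ)) - 1) := by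
    rw [h1]
    ring
  rw [h5, norm_mul]
  calc ‖(k : ℂ) ^ w‖ * ‖Complex.exp (w * (Real.log (1 + 1 / k) : ℝ)) - 1‖
      ≤ (T : ℝ) ^ η * (2 * (η * (1 / k))) := by
        refine mul_le_mul (cpow_norm_le hk hkT hη hw) (h4.trans ?_) (norm_nonneg _) (by positivity)
        linarith
    _ = 2 * η * (T : ℝ) ^ η * (1 / k) := by ring

/-- the sum over `k > X` is not small -/
theorem lower (hL : LApp) (r : ℕ) [NeZero r] (hr : r.Prime) (χ : DirichletCharacter ℂ r) (hχ : χ ≠ 1)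
    (ρ : ℂ) (η : ℝ) (hη1 : η ≤ 1 / 16) (hρ : ‖ρ - 1‖ < η)
    (hz : DirichletCharacter.LFunction χ ρ = 0)
    (hsmall : 4 * r * ((r ^ 2 : ℕ) : ℝ) ^ (-(1 - η)) *
      (((r ^ 2 : ℕ) : ℝ) ^ η * (1 + Real.log ((r ^ 2 : ℕ) : ℝ))) ≤ 1 / 2) :
    1 / 2 ≤ ‖∑ k ∈ Ioc (r ^ 2) (r ^ 2 * r ^ 2), ((cf (r ^ 2) k : ℝ) : ℂ) *
      (χ (k : ZMod r) * (k : ℂ) ^ (-ρ))‖ := by
  have hη0 : 0 < η := (norm_nonneg _).trans_lt hρ
  set X := r ^ 2 with hX
  have hr1 : 1 ≤ r := hr.one_lt.le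
  have hX1 : 1 ≤ X := Nat.one_le_pow _ _ hr1
  have hX1' : (1 : ℝ) ≤ X := by exact_mod_cast hX1
  have hX0 : (0 : ℝ) < X := by linarith
  have hre : |ρ.re - 1| < η := by
    have := Complex.abs_re_le_norm (ρ - 1)
    simp only [Complex.sub_re, Complex.one_re] at this
    linarith
  have hre1 : 1 - η < ρ.re := by linarith [(abs_lt.1 hre).1]
  have hρn : ‖ρ‖ ≤ 1 + η := by
    calc ‖ρ‖ = ‖(ρ - 1) + 1‖ := by ring_nf
      _ ≤ ‖ρ - 1‖ + ‖(1 : ℂ)‖ := norm_add_le _ _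
      _ ≤ 1 + η := by rw [norm_one]; linarith
  -- the partial sum of `L`
  have hD : ‖∑ n ∈ Icc 1 X, χ (n : ZMod r) * (n : ℂ) ^ (-ρ)‖ ≤ 4 * r * (X : ℝ) ^ (-(1 - η)) := by
    have h := hL r χ hχ ρ (by linarith) X hX1
    rw [hz, zero_sub, norm_neg] at h
    refine h.trans ?_
    have h1 : 2 * r * ‖ρ‖ / ρ.re ≤ 4 * r := by
      rw [div_le_iff₀ (by linarith)]
      have hr0 : (0 : ℝ) ≤ r := by positivity
      nlinarith [mul_nonneg hr0 (norm_nonneg ρ)]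
    have h2 : (X : ℝ) ^ (-ρ.re) ≤ (X : ℝ) ^ (-(1 - η)) :=
      Real.rpow_le_rpow_of_exponent_le hX1' (by linarith)
    exact mul_le_mul h1 h2 (by positivity) (by positivity)
  -- the mollifier
  have hM : ‖∑ m ∈ Icc 1 X, ((μ m : ℤ) : ℂ) * (χ (m : ZMod r) * (m : ℂ) ^ (-ρ))‖ ≤
      (X : ℝ) ^ η * (1 + Real.log X) := by
    refine (norm_sum_le _ _).trans ?_
    calc ∑ m ∈ Icc 1 X, ‖((μ m : ℤ) : ℂ) * (χ (m : ZMod r) * (m : ℂ) ^ (-ρ))‖
        ≤ ∑ m ∈ Icc 1 X, (X : ℝ) ^ η * (1 / m) := by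
          refine Finset.sum_le_sum fun m hm => ?_
          rw [Finset.mem_Icc] at hm
          have hm0 : (0 : ℝ) < m := by exact_mod_cast hm.1
          have h1 : ‖((μ m : ℤ) : ℂ)‖ ≤ 1 := by
            rw [Complex.norm_intCast]
            exact abs_moebius m
          have h2 : ‖χ (m : ZMod r)‖ ≤ 1 := χ.norm_le_one _
          have h3 : ‖(m : ℂ) ^ (-ρ)‖ ≤ (X : ℝ) ^ η * (1 / m) := by
            have e1 : (m : ℂ) ^ (-ρ) = (m : ℂ) ^ (1 - ρ) * ((1 / m : ℝ) : ℂ) := by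
              have hm0' : (m : ℂ) ≠ 0 := by exact_mod_cast hm0.ne'
              rw [show (1 - ρ) = -ρ + 1 by ring, Complex.cpow_add _ _ hm0', Complex.cpow_one]
              push_cast
              field_simp
            rw [e1, norm_mul, Complex.norm_real, Real.norm_of_nonneg (by positivity)]
            refine mul_le_mul_of_nonneg_right ?_ (by positivity)
            refine cpow_norm_le hm.1 hm.2 hη0.le ?_
            rw [norm_sub_rev]
            exact hρ.le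
          rw [norm_mul, norm_mul]
          calc ‖((μ m : ℤ) : ℂ)‖ * (‖χ (m : ZMod r)‖ * ‖(m : ℂ) ^ (-ρ)‖)
              ≤ 1 * (1 * ((X : ℝ) ^ η * (1 / m))) := by
                refine mul_le_mul h1 ?_ (by positivity) zero_le_one
                exact mul_le_mul h2 h3 (norm_nonneg _) zero_le_one
            _ = _ := by ring
      _ = (X : ℝ) ^ η * ∑ m ∈ Icc 1 X, (1 : ℝ) / m := by rw [Finset.mul_sum]
      _ ≤ (X : ℝ) ^ η * (1 + Real.log X) :=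
          mul_le_mul_of_nonneg_left (sum_inv_le X) (by positivity)
  -- the product
  have hprod := cf_prod X (fun k => χ (k : ZMod r) * (k : ℂ) ^ (-ρ)) (by
    intro m n
    push_cast
    rw [map_mul, Complex.natCast_mul_natCast_cpow]
    ring)
  have hsplit : Icc 1 (X * X) = insert 1 (Ioc 1 X ∪ Ioc X (X * X)) := by
    ext k
    have hXX : X ≤ X * X := Nat.le_mul_of_pos_left _ hX1
    simp only [Finset.mem_Icc, Finset.mem_insert, Finset.mem_union, Finset.mem_Ioc]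
    constructor
    · intro h
      omega
    · intro h
      omega
  have hsum : ∑ k ∈ Icc 1 (X * X), ((cf X k : ℝ) : ℂ) * (χ (k : ZMod r) * (k : ℂ) ^ (-ρ)) =
      1 + ∑ k ∈ Ioc X (X * X), ((cf X k : ℝ) : ℂ) * (χ (k : ZMod r) * (k : ℂ) ^ (-ρ)) := by
    rw [hsplit, Finset.sum_insert, Finset.sum_union]
    · rw [cf_small X 1 le_rfl hX1, if_pos rfl]
      rw [Finset.sum_eq_zero (s := Ioc 1 X), zero_add]
      · simp
      · intro k hk
        rw [Finset.mem_Ioc] at hk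
        rw [cf_small X k (by omega) hk.2, if_neg (by omega)]
        simp
    · rw [Finset.disjoint_left]
      intro k hk hk'
      rw [Finset.mem_Ioc] at hk hk'
      omega
    · simp only [Finset.mem_union, Finset.mem_Ioc]
      omega
  rw [hsum] at hprod
  set Sg := ∑ k ∈ Ioc X (X * X), ((cf X k : ℝ) : ℂ) * (χ (k : ZMod r) * (k : ℂ) ^ (-ρ)) with hSg
  have h1 : ‖1 + Sg‖ ≤ 1 / 2 := by
    rw [← hprod, norm_mul, mul_comm]
    refine (mul_le_mul hD hM (norm_nonneg _) (by positivity)).trans hsmall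
  have h2 : (1 : ℝ) ≤ ‖1 + Sg‖ + ‖Sg‖ := by
    calc (1 : ℝ) = ‖(1 + Sg) - Sg‖ := by simp
      _ ≤ _ := norm_sub_le _ _
  linarith

/-- the inequality after summation by parts -/
theorem lower' (hL : LApp) (r : ℕ) [NeZero r] (hr : r.Prime) (χ : DirichletCharacter ℂ r) (hχ : χ ≠ 1)
    (ρ : ℂ) (η : ℝ) (hη1 : η ≤ 1 / 16) (hρ : ‖ρ - 1‖ < η)
    (hz : DirichletCharacter.LFunction χ ρ = 0)
    (hsmall : 4 * r * ((r ^ 2 : ℕ) : ℝ) ^ (-(1 - η)) *
      (((r ^ 2 : ℕ) : ℝ) ^ η * (1 + Real.log ((r ^ 2 : ℕ) : ℝ))) ≤ 1 / 2) :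
    1 / 2 ≤ ((r ^ 2 * r ^ 2 : ℕ) : ℝ) ^ η * (‖SS χ (r ^ 2) (r ^ 2 * r ^ 2)‖ +
      2 * η * ∑ k ∈ Ioo (r ^ 2) (r ^ 2 * r ^ 2), 1 / (k : ℝ) * ‖SS χ (r ^ 2) k‖) := by
  have hη0 : 0 < η := (norm_nonneg _).trans_lt hρ
  refine (lower hL r hr χ hχ ρ η hη1 hρ hz hsmall).trans ?_
  set X := r ^ 2 with hX
  set T := X * X with hT
  have hr2 : 2 ≤ r := hr.two_le
  have hX4 : 4 ≤ X := by
    rw [hX]
    nlinarith
  have hXT : X < T := by
    rw [hT]
    nlinarith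
  have h1 : ∑ k ∈ Ioc X T, ((cf X k : ℝ) : ℂ) * (χ (k : ZMod r) * (k : ℂ) ^ (-ρ)) =
      ∑ k ∈ Ioc X T, (((cf X k * (1 / k) : ℝ) : ℂ) * χ (k : ZMod r)) * (k : ℂ) ^ (1 - ρ) := by
    refine Finset.sum_congr rfl fun k hk => ?_
    rw [Finset.mem_Ioc] at hk
    have hk0 : (k : ℂ) ≠ 0 := by
      have : (k : ℝ) ≠ 0 := by
        have : (0 : ℝ) < k := by exact_mod_cast (by omega : 0 < k)
        exact this.ne'
      exact_mod_cast this
    rw [show (1 - ρ) = -ρ + 1 by ring, Complex.cpow_add _ _ hk0, Complex.cpow_one]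
    push_cast
    field_simp
  rw [h1, abel (fun k => ((cf X k * (1 / k) : ℝ) : ℂ) * χ (k : ZMod r))
    (fun k => (k : ℂ) ^ (1 - ρ)) X T hXT]
  refine (norm_sub_le _ _).trans ?_
  rw [mul_add]
  have hw : ‖1 - ρ‖ ≤ η := by
    rw [norm_sub_rev]
    exact hρ.le
  refine add_le_add ?_ ?_
  · rw [norm_mul, mul_comm]
    refine mul_le_mul_of_nonneg_right ?_ (norm_nonneg _)
    exact cpow_norm_le (by omega) le_rfl hη0.le hw
  · refine (norm_sum_le _ _).trans ?_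
    rw [Finset.mul_sum, Finset.mul_sum]
    refine Finset.sum_le_sum fun k hk => ?_
    rw [Finset.mem_Ioo] at hk
    rw [norm_mul]
    have h2 := cpow_diff_le (k := k) (T := T) (by omega) (by omega) hη0.le (by linarith) hw
    calc ‖∑ j ∈ Ioc X k, ((cf X j * (1 / j) : ℝ) : ℂ) * χ (j : ZMod r)‖ *
          ‖((k + 1 : ℕ) : ℂ) ^ (1 - ρ) - (k : ℂ) ^ (1 - ρ)‖
        ≤ ‖SS χ X k‖ * (2 * η * (T : ℝ) ^ η * (1 / k)) :=
          mul_le_mul_of_nonneg_left h2 (norm_nonneg _)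
      _ = _ := by ring

/-- mean square of the partial sums -/
theorem SS_mean (r : ℕ) (hr : r.Prime) (t : ℕ) :
    ∑ χ : DirichletCharacter ℂ r, ‖SS χ (r ^ 2) t‖ ^ 2 ≤ 16 * (1 + Real.log r) ^ 4 := by
  haveI : Fact r.Prime := ⟨hr⟩
  have hr1 : (1 : ℝ) ≤ r := by exact_mod_cast hr.one_lt.le
  have hr0 : (0 : ℝ) < r := by linarith
  have hlog : 0 ≤ Real.log r := Real.log_nonneg hr1
  have habs : ∀ k : ℕ, |cf (r ^ 2) k * (1 / k)| = |cf (r ^ 2) k| * (1 / k) := by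
    intro k
    rw [abs_mul, abs_of_nonneg (by positivity : (0 : ℝ) ≤ 1 / (k : ℝ))]
  refine (mean_square r (Ioc (r ^ 2) t) (fun k => cf (r ^ 2) k * (1 / k))
    (2 * ((1 + 2 * Real.log r) * ((1 + Real.log r) / r))) (by positivity) ?_).trans ?_
  · intro k hk hk0
    simp only [habs]
    refine class_sum r hr (k : ZMod r) hk0 _ ?_
    intro k' hk'
    rw [Finset.mem_filter, Finset.mem_Ioc] at hk'
    exact ⟨hk'.1.1, hk'.2⟩
  · simp only [habs]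
    have h1 := total_sum (r ^ 2) (Ioc (r ^ 2) t)
    push_cast at h1
    rw [Real.log_pow] at h1
    push_cast at h1
    have h2 : (r : ℝ) * ((1 + 2 * Real.log r) ^ 2 *
        (2 * ((1 + 2 * Real.log r) * ((1 + Real.log r) / r)))) =
        2 * (1 + 2 * Real.log r) ^ 3 * (1 + Real.log r) := by
      field_simp
    have h3 : (1 + 2 * Real.log r) ^ 3 ≤ 8 * (1 + Real.log r) ^ 3 := by
      calc (1 + 2 * Real.log r) ^ 3 ≤ (2 * (1 + Real.log r)) ^ 3 :=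
            pow_le_pow_left₀ (by positivity) (by linarith) 3
        _ = 8 * (1 + Real.log r) ^ 3 := by ring
    calc (r : ℝ) * ((∑ k ∈ Ioc (r ^ 2) t, |cf (r ^ 2) k| * (1 / (k : ℝ))) *
          (2 * ((1 + 2 * Real.log r) * ((1 + Real.log r) / r))))
        ≤ (r : ℝ) * ((1 + 2 * Real.log r) ^ 2 *
          (2 * ((1 + 2 * Real.log r) * ((1 + Real.log r) / r)))) := by
          refine mul_le_mul_of_nonneg_left ?_ hr0.le
          exact mul_le_mul_of_nonneg_right h1 (by positivity)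
      _ = 2 * (1 + 2 * Real.log r) ^ 3 * (1 + Real.log r) := h2
      _ ≤ 2 * (8 * (1 + Real.log r) ^ 3) * (1 + Real.log r) := by
          refine mul_le_mul_of_nonneg_right ?_ (by positivity)
          linarith
      _ = 16 * (1 + Real.log r) ^ 4 := by ring

/-- the counting inequality -/
theorem count (hL : LApp) (r : ℕ) [NeZero r] (hr : r.Prime) (η : ℝ) (hη0 : 0 < η) (hη1 : η ≤ 1 / 16)
    (hsmall : 4 * r * ((r ^ 2 : ℕ) : ℝ) ^ (-(1 - η)) *
      (((r ^ 2 : ℕ) : ℝ) ^ η * (1 + Real.log ((r ^ 2 : ℕ) : ℝ))) ≤ 1 / 2)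
    (S : Finset (DirichletCharacter ℂ r))
    (hS : ∀ χ ∈ S, χ ≠ 1 ∧ ∃ ρ : ℂ, ‖ρ - 1‖ < η ∧ DirichletCharacter.LFunction χ ρ = 0) :
    (S.card : ℝ) ≤ 4 * (((r ^ 2 * r ^ 2 : ℕ) : ℝ) ^ η * (1 + 2 * η * (1 + 4 * Real.log r))) ^ 2 *
      (16 * (1 + Real.log r) ^ 4) := by
  have hr1 : (1 : ℝ) ≤ r := by exact_mod_cast hr.one_lt.le
  have hlog : 0 ≤ Real.log r := Real.log_nonneg hr1
  set X := r ^ 2 with hX
  set T := X * X with hT
  set V := 16 * (1 + Real.log r) ^ 4 with hV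
  set n : ℝ := (S.card : ℝ) with hn
  have hn0 : 0 ≤ n := by positivity
  have hV0 : 0 ≤ V := by positivity
  set Q := Real.sqrt (n * V) with hQ
  have hQ0 : 0 ≤ Q := Real.sqrt_nonneg _
  have hcs : ∀ t, ∑ χ ∈ S, ‖SS χ X t‖ ≤ Q := by
    intro t
    refine Real.le_sqrt_of_sq_le ?_
    have h1 := sq_sum_le_card_mul_sum_sq (s := S) (f := fun χ => ‖SS χ X t‖)
    refine h1.trans ?_
    refine mul_le_mul_of_nonneg_left ?_ hn0
    refine le_trans ?_ (SS_mean r hr t)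
    exact Finset.sum_le_sum_of_subset_of_nonneg (Finset.subset_univ _) fun _ _ _ => by positivity
  have h1 : ∑ χ ∈ S, (1 / 2 : ℝ) ≤ ∑ χ ∈ S, (T : ℝ) ^ η * (‖SS χ X T‖ +
      2 * η * ∑ k ∈ Ioo X T, 1 / (k : ℝ) * ‖SS χ X k‖) := by
    refine Finset.sum_le_sum fun χ hχ => ?_
    obtain ⟨h1, ρ, h2, h3⟩ := hS χ hχ
    exact lower' hL r hr χ h1 ρ η hη1 h2 h3 hsmall
  rw [Finset.sum_const, nsmul_eq_mul, ← hn, ← Finset.mul_sum, Finset.sum_add_distrib,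
    ← Finset.mul_sum, Finset.sum_comm] at h1
  have h2 : ∑ k ∈ Ioo X T, ∑ χ ∈ S, 1 / (k : ℝ) * ‖SS χ X k‖ ≤ (1 + 4 * Real.log r) * Q := by
    calc ∑ k ∈ Ioo X T, ∑ χ ∈ S, 1 / (k : ℝ) * ‖SS χ X k‖
        ≤ ∑ k ∈ Ioo X T, 1 / (k : ℝ) * Q := by
          refine Finset.sum_le_sum fun k _ => ?_
          rw [← Finset.mul_sum]
          exact mul_le_mul_of_nonneg_left (hcs k) (by positivity)
      _ = (∑ k ∈ Ioo X T, 1 / (k : ℝ)) * Q := by rw [Finset.sum_mul]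
      _ ≤ (1 + 4 * Real.log r) * Q := by
          refine mul_le_mul_of_nonneg_right ?_ hQ0
          have h3 : ∑ k ∈ Ioo X T, 1 / (k : ℝ) ≤ ∑ k ∈ Icc 1 T, 1 / (k : ℝ) := by
            refine Finset.sum_le_sum_of_subset_of_nonneg ?_ fun _ _ _ => by positivity
            intro k hk
            rw [Finset.mem_Ioo] at hk
            rw [Finset.mem_Icc]
            omega
          refine (h3.trans (sum_inv_le T)).trans ?_
          have h4 : Real.log (T : ℝ) = 4 * Real.log r := by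
            rw [hT, hX]
            push_cast
            rw [← pow_add, Real.log_pow]
            push_cast
            ring
          rw [h4]
  set G := (T : ℝ) ^ η * (1 + 2 * η * (1 + 4 * Real.log r)) with hG
  have hT0 : (0 : ℝ) ≤ (T : ℝ) ^ η := by positivity
  have hG0 : 0 ≤ G := by positivity
  have h3 : n * (1 / 2) ≤ G * Q := by
    refine h1.trans ?_
    calc (T : ℝ) ^ η * (∑ χ ∈ S, ‖SS χ X T‖ +
          2 * η * ∑ k ∈ Ioo X T, ∑ χ ∈ S, 1 / (k : ℝ) * ‖SS χ X k‖)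
        ≤ (T : ℝ) ^ η * (Q + 2 * η * ((1 + 4 * Real.log r) * Q)) := by
          refine mul_le_mul_of_nonneg_left ?_ hT0
          refine add_le_add (hcs T) ?_
          exact mul_le_mul_of_nonneg_left h2 (by positivity)
      _ = G * Q := by rw [hG]; ring
  have h4 : (n * (1 / 2)) ^ 2 ≤ G ^ 2 * (n * V) := by
    calc (n * (1 / 2)) ^ 2 ≤ (G * Q) ^ 2 := pow_le_pow_left₀ (by positivity) h3 2
      _ = G ^ 2 * (n * V) := by
          rw [mul_pow, hQ, Real.sq_sqrt (by positivity)]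
  rcases hn0.eq_or_lt with h0 | h0
  · rw [← h0]
    positivity
  · have h5 : n * n ≤ n * (4 * G ^ 2 * V) := by nlinarith
    exact le_of_mul_le_mul_left h5 h0

end Vale.Agent.P319.SC.QL.H811
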